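import Vale.Agent.P043.Defs
import Vale.Agent.P043.Eu.Defs
import Vale.Agent.P043.Bdl.B2
import Vale.Agent.P043.H703.Main

open MeasureTheory Vale.Agent.P043 Vale.Agent.P043.Eu in
/-- (1) The periodic tiling conjecture fails in `ℤ^d` and in `ℝ^d` for every `d ≥ 3`.
(2) For every `d ≥ 3` one polycube refutes both forms: there is a finite set `P ⊂ ℤ^d` such that the
union `Om` of the closed unit cubes `p + [0,1]^d`, `p ∈ P`, has connected interior, `P` tiles `ℤ^d`,
every tiling of `ℝ^d` by `Om` is a translate of a tiling of `ℤ^d` by `P`, and no tiling of `ℤ^d` by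
`P` or of `ℝ^d` by `Om` is periodic, or even has `d - 1` linearly independent periods. -/
theorem Vale.Agent.Results.P043.AperiodicPolycubes.result :
    ((∀ d : ℕ, 3 ≤ d →
      ∃ F : Finset (Fin d → ℤ), F.Nonempty ∧
        (∃ A : Set (Fin d → ℤ), IsTiling A F) ∧
        ∀ A : Set (Fin d → ℤ), IsTiling A F → ¬ IsPeriodic A) ∧
    (∀ d : ℕ, 3 ≤ d →
      ∃ Om : Set (Fin d → ℝ), Bornology.IsBounded Om ∧ MeasurableSet Om ∧ 0 < volume Om ∧
        (∃ A : Set (Fin d → ℝ), TilesAE Om A) ∧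
        ∀ A : Set (Fin d → ℝ), TilesAE Om A → ¬ LatticePeriodic A)) ∧
    ∀ d : ℕ, 3 ≤ d →
      ∃ (P : Finset (Fin d → ℤ)) (Om : Set (Fin d → ℝ)),
        Om = ⋃ p ∈ P, Set.Icc (fun i => (p i : ℝ)) (fun i => (p i : ℝ) + 1) ∧
        IsConnected (interior Om) ∧
        (∃ B : Set (Fin d → ℤ), IsTiling B P) ∧
        (∀ A : Set (Fin d → ℝ), TilesAE Om A ↔
          ∃ (v : Fin d → ℝ) (B : Set (Fin d → ℤ)), IsTiling B P ∧
            A = (fun z i => v i + (z i : ℝ)) '' B) ∧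
        (∀ B : Set (Fin d → ℤ), IsTiling B P → ¬ IsPeriodic B ∧
          ∀ b : Fin (d - 1) → (Fin d → ℤ), LinearIndependent ℤ b →
            ∃ i, (fun a => a + b i) '' B ≠ B) ∧
        ∀ A : Set (Fin d → ℝ), TilesAE Om A → ¬ LatticePeriodic A ∧
          ∀ b : Fin (d - 1) → (Fin d → ℝ), LinearIndependent ℝ b →
            ∃ i, (fun a => a + b i) '' A ≠ A := by
  refine ⟨⟨fun d hd => Vale.Agent.P043.Z.ptc_fails3 d hd, fun d hd => ?_⟩,
    Vale.Agent.P043.H703.aperiodic_polycube⟩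
  rcases Nat.lt_or_ge d 4 with h | h
  · obtain rfl : d = 3 := by omega
    exact Vale.Agent.P043.Hy.euclid3
  · exact Vale.Agent.P043.Eu.euclid4 h
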